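import Vale.Agent.P269HS.Spec

/-!
# P269, row H5: the horizontal forms are smooth forms with values in `O(1)`
-/

open scoped Manifold ContDiff Topology Matrix
open Filter
open Vale.Agent.P272.K Vale.Agent.P299.IX Vale.Agent.P299.IX.Fock Vale.Agent.P281Z.Hg
  Vale.Agent.P275FM
open Vale.Agent.P269HK Vale.Agent.P269HS

noncomputable section

namespace Vale.Agent.P269HT70

variable {n N : ℕ} {Y : Type} [TopologicalSpace Y] [ChartedSpace (Cm n) Y] (H : HC n Y (Fin N))

theorem nrm_ne {v : Fin N → ℂ} {κ : Fin N} (h : v κ ≠ 0) : ∑ l, v l * star (v l) ≠ 0 := by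
  have h1 : ∑ l, v l * star (v l) = ((∑ l, Complex.normSq (v l) : ℝ) : ℂ) := by
    rw [Complex.ofReal_sum]
    exact Finset.sum_congr rfl fun l _ => Complex.mul_conj _
  rw [h1, Complex.ofReal_ne_zero]
  exact (Finset.sum_pos' (fun l _ => Complex.normSq_nonneg _)
    ⟨κ, Finset.mem_univ _, Complex.normSq_pos.2 h⟩).ne'

theorem p_eq {v : Fin N → ℂ} {κ : Fin N} (h : v κ ≠ 0) (i k : Fin N) :
    v i / v κ * star (v k / v κ) * (∑ l, v l / v κ * star (v l / v κ))⁻¹ =
      v i * (star (v k) / ∑ l, v l * star (v l)) := by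
  have h1 : star (v κ) ≠ 0 := star_ne_zero.2 h
  have h2 : ∑ l, v l / v κ * star (v l / v κ) = (∑ l, v l * star (v l)) / (v κ * star (v κ)) := by
    rw [Finset.sum_div]
    exact Finset.sum_congr rfl fun l _ => by rw [star_div₀, div_mul_div_comm]
  have h3 := nrm_ne h
  rw [h2, star_div₀]
  field_simp

theorem smt_star {g : Y → ℂ} {y : Y} (h : Smt n g y) : Smt n (fun x => star (g x)) y :=
  fun e he => (Complex.conjCLE.contDiff.contDiffAt).comp (e y) (h e he)

/-- the projector on the Euler line has smooth entries -/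
theorem psm (i k : Fin N) (y : Y) : Smt n (fun x => H.x x i * yy H x k) y := by
  have hκ := H.κ_ne y
  have hs : ∀ l, Smt n (fun x => H.x x l / H.x x (H.κ y)) y := fun l =>
    smt_of_hol (H.hol y _ hκ l)
  have h1 : Smt n (fun x => H.x x i / H.x x (H.κ y) * star (H.x x k / H.x x (H.κ y)) *
      (∑ l, H.x x l / H.x x (H.κ y) * star (H.x x l / H.x x (H.κ y)))⁻¹) y :=
    ((hs i).mul (smt_star (hs k))).mul fun e he =>
      (Smt.sum Finset.univ (fun l _ => (hs l).mul (smt_star (hs l))) e he).inv (by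
        rw [e.left_inv he.2]
        exact nrm_ne (v := fun l => H.x y l / H.x y (H.κ y)) (κ := H.κ y) (div_ne_zero hκ hκ))
  exact h1.congr ((H.near hκ).mono fun x hx => p_eq hx i k)

variable [IsManifold 𝓘(ℂ, Cm n) ω Y] {e e' : Chart n Y} {y : Y}

theorem dz_ch {g : Y → ℂ} (hg : Smt n g y) (he : At e y) (he' : At e' y) (j : Fin n) :
    dz j (fun z => g (e.symm z)) (e y) =
      ∑ l, jt e e' y (hl j) (hl l) * dz l (fun z => g (e'.symm z)) (e' y) := by
  have h1 : (fun z => g (e.symm z)) =ᶠ[𝓝 (e y)] fun z => g (e'.symm (e' (e.symm z))) :=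
    (ev_symm he (e'.open_source.mem_nhds he'.2)).mono fun z hz => by
      show g (e.symm z) = g (e'.symm (e' (e.symm z)))
      rw [e'.left_inv hz]
  have h2 := k1b'.dr_comp (ψ := fun z => e' (e.symm z)) (g := fun z => g (e'.symm z)) (z := e y)
    (hl j) ((G1H.tr_sm he he').differentiableAt (by simp))
    (by rw [e.left_inv he.2]; exact (hg e' he').differentiableAt (by simp))
  rw [Ka.dr_hl, e.left_inv he.2, Fin.sum_univ_add] at h2
  rw [C2.dz_congr j h1, h2]
  have h3 : ∀ l, jt e e' y (hl j) (ah l) = 0 := fun l => by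
    rw [G1H.jt_eq k1b' he he', F1bH.blk_ha]
  have h4 : ∑ l : Fin n, jc (fun z => e' (e.symm z)) (e y) (hl j) (Fin.natAdd n l) *
      dr (Fin.natAdd n l) (fun z => g (e'.symm z)) (e' y) = 0 :=
    Finset.sum_eq_zero fun l _ => mul_eq_zero_of_left (h3 l) _
  rw [h4, add_zero]
  exact Finset.sum_congr rfl fun l _ => congrArg _ (congrFun (congrFun (Ka.dr_hl l) _) _)

theorem th_ch (he : At e y) (he' : At e' y) (i : Fin N) (j : Fin n) :
    Θ H e y i j = ∑ l, jt e e' y (hl j) (hl l) * Θ H e' y i l := by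
  simp only [Θ, Finset.mul_sum]
  rw [Finset.sum_comm]
  refine Finset.sum_congr rfl fun k _ => ?_
  rw [dz_ch (psm H i k y) he he', Finset.mul_sum]
  exact Finset.sum_congr rfl fun l _ => mul_left_comm _ _ _

omit [IsManifold 𝓘(ℂ, Cm n) ω Y] in
theorem tm_eq (e : Chart n Y) (y : Y) (i : Fin N) :
    TM H e y i = epsV (Fin.append (Θ H e y i) 0) := by
  rw [epsV, Fin.sum_univ_add]
  simp only [Fin.append_left, Fin.append_right, Pi.zero_apply, zero_smul, Finset.sum_const_zero,
    add_zero]
  rfl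

theorem tcv : TCV := by
  intro n N Y _ _ _ H
  refine ⟨fun e e' y i j he he' => th_ch H he he' i j, fun e e' y i he he' => ?_,
    fun e y k i j he hk => ?_⟩
  · rw [tm_eq, tm_eq, lam_epsV]
    congr 2
    funext c
    rw [Matrix.mulVec, dotProduct, Fin.sum_univ_add]
    simp only [Fin.append_left, Fin.append_right, Pi.zero_apply, mul_zero, Finset.sum_const_zero,
      add_zero]
    refine Fin.addCases (fun j => ?_) (fun j => ?_) c
    · rw [Fin.append_left]
      exact th_ch H he he' i j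
    · rw [Fin.append_right]
      refine (Finset.sum_eq_zero fun l _ => mul_eq_zero_of_left ?_ _).symm
      rw [G1H.jt_eq k1b' he he']
      exact F1bH.blk_ah _ _ j l
  · have h1 : ContDiffAt ℝ ∞ (fun z => ∑ l, H.x (e.symm z) l / H.x (e.symm z) k *
        dz j (fun z => H.x (e.symm z) i * yy H (e.symm z) l) z) (e y) :=
      ContDiffAt.sum fun l _ => (smt_of_hol (H.hol y k hk l) e he).mul
        (C2.contDiffAt_dz (m := ∞) j (psm H i l y e he) le_rfl)
    refine h1.congr_of_eventuallyEq ?_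
    filter_upwards [e.open_target.mem_nhds (e.map_source he.2)] with z hz
    rw [Θ, e.right_inv hz, Finset.sum_div]
    exact Finset.sum_congr rfl fun l _ => mul_div_right_comm _ _ _

end Vale.Agent.P269HT70
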